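import Mathlib.Analysis.SpecialFunctions.Complex.Log
import Mathlib.Data.ZMod.Basic
import Mathlib.Data.Fintype.BigOperators
import Mathlib.Algebra.BigOperators.Fin

/-!
[SQ]: the finite Fourier transform of `v ↦ f v e(β Q v / d)` mod `d m`, `(d, m) = 1`:
Chinese remainder theorem and completing the square.
-/

namespace Vale.Agent.P022.H138.Sq

noncomputable section

open Complex

/-- the binary quadratic form -/
def Qf (a b c : ℤ) (v : Fin 2 → ℤ) : ℤ := a * v 0 ^ 2 + b * v 0 * v 1 + c * v 1 ^ 2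

/-- `exp (2 π i z)` -/
def ee (z : ℂ) : ℂ := cexp (2 * Real.pi * I * z)

/-- the representative of a vector mod `M` -/
def rep {M : ℕ} (x : Fin 2 → ZMod M) : Fin 2 → ℤ := fun i => ((x i).val : ℤ)

/-- finite Fourier transform of a function with period `q` -/
def hat (q : ℕ) [NeZero q] (f : (Fin 2 → ℤ) → ℂ) (w : Fin 2 → ℤ) : ℂ :=
  ∑ r : Fin 2 → ZMod q, f (rep r) * ee (((w 0 * rep r 1 - w 1 * rep r 0 : ℤ) : ℂ) / q)

/-- functions with period `q` -/
def Per (q : ℕ) (f : (Fin 2 → ℤ) → ℂ) : Prop := ∀ v u, f (v + (q : ℤ) • u) = f v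

lemma ee_add (a b : ℂ) : ee (a + b) = ee a * ee b := by
  unfold ee
  rw [← Complex.exp_add]
  congr 1
  ring

lemma ee_int (n : ℤ) : ee (n : ℂ) = 1 := by
  unfold ee
  rw [Complex.exp_eq_one_iff]
  exact ⟨n, by ring⟩

lemma ee_zero : ee 0 = 1 := by
  simp [ee]

/-- integers congruent mod `d` give the same value -/
lemma ee_congr {d : ℕ} [NeZero d] {a b : ℤ} (h : (d : ℤ) ∣ a - b) :
    ee ((a : ℂ) / (d : ℂ)) = ee ((b : ℂ) / (d : ℂ)) := by
  obtain ⟨n, hn⟩ := h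
  have hd : (d : ℂ) ≠ 0 := by exact_mod_cast NeZero.ne d
  have : (a : ℂ) / (d : ℂ) = (b : ℂ) / (d : ℂ) + (n : ℤ) := by
    have h2 : (a : ℂ) = b + d * n := by
      have h3 : a = b + d * n := by linarith
      rw [h3]; push_cast; ring
    rw [h2]
    field_simp
  rw [this, ee_add, ee_int, mul_one]

lemma rep_cast {M : ℕ} [NeZero M] (z : Fin 2 → ℤ) :
    ∃ y : Fin 2 → ℤ, z = rep (fun i => (z i : ZMod M)) + (M : ℤ) • y := by
  refine ⟨fun i => z i / (M : ℤ), ?_⟩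
  funext i
  simp only [rep, Pi.add_apply, Pi.smul_apply, smul_eq_mul]
  rw [ZMod.val_intCast]
  exact (Int.emod_add_mul_ediv (z i) M).symm

lemma Per.rep {M : ℕ} [NeZero M] {H : (Fin 2 → ℤ) → ℂ} (hH : Per M H) (z : Fin 2 → ℤ) :
    H (rep (fun i => (z i : ZMod M))) = H z := by
  obtain ⟨y, hy⟩ := rep_cast (M := M) z
  conv_rhs => rw [hy]
  rw [hH]

lemma rep_coe {M : ℕ} [NeZero M] (x : Fin 2 → ZMod M) : (fun i => ((rep x i : ℤ) : ZMod M)) = x := by
  funext i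
  simp [Sq.rep]

/-- sums over residues are invariant under translations -/
lemma sum_shift {M : ℕ} [NeZero M] {H : (Fin 2 → ℤ) → ℂ} (hH : Per M H) (w : Fin 2 → ℤ) :
    ∑ x : Fin 2 → ZMod M, H (rep x + w) = ∑ x : Fin 2 → ZMod M, H (rep x) := by
  have h1 : ∀ x : Fin 2 → ZMod M, H (rep x + w) =
      H (Sq.rep (x + fun i => (w i : ZMod M))) := by
    intro x
    rw [← hH.rep (rep x + w)]
    congr 2
    funext i
    simp [Sq.rep]
  simp_rw [h1]
  exact Equiv.sum_comp (Equiv.addRight (fun i => (w i : ZMod M))) (fun x : Fin 2 → ZMod M => H (Sq.rep x))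

/-- Chinese remainder theorem for sums over residues -/
lemma sum_crt {d m : ℕ} [NeZero d] [NeZero m] (hmd : m.Coprime d) {H : (Fin 2 → ℤ) → ℂ}
    (hH : Per (d * m) H) :
    ∑ x : Fin 2 → ZMod (d * m), H (rep x) =
      ∑ x : Fin 2 → ZMod d, ∑ y : Fin 2 → ZMod m, H ((m : ℤ) • rep x + (d : ℤ) • rep y) := by
  rw [← Fintype.sum_prod_type']
  let φ : (Fin 2 → ZMod d) × (Fin 2 → ZMod m) → (Fin 2 → ZMod (d * m)) :=
    fun u i => ((((m : ℤ) • rep u.1 + (d : ℤ) • rep u.2) i : ℤ) : ZMod (d * m))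
  have hφ : Function.Bijective φ := by
    rw [Fintype.bijective_iff_injective_and_card]
    constructor
    · rintro ⟨x, y⟩ ⟨x', y'⟩ h
      have h1 : ∀ i, ((d * m : ℕ) : ℤ) ∣
          (m * rep x i + d * rep y i) - (m * rep x' i + d * rep y' i) := by
        intro i
        have h2 := congrFun h i
        simp only [φ, Pi.add_apply, Pi.smul_apply, smul_eq_mul] at h2
        rw [ZMod.intCast_eq_intCast_iff_dvd_sub] at h2
        have h3 := (dvd_neg.2 h2)
        rw [neg_sub] at h3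
        exact h3
      have hc1 : IsCoprime (d : ℤ) (m : ℤ) := Int.isCoprime_iff_gcd_eq_one.2 (by
        rw [Int.gcd_natCast_natCast]; exact Nat.Coprime.symm hmd)
      have hx : x = x' := by
        rw [← rep_coe x, ← rep_coe x']
        funext i
        rw [ZMod.intCast_eq_intCast_iff_dvd_sub]
        have h4 : (d : ℤ) ∣ m * (rep x' i - rep x i) := by
          have h5 : (d : ℤ) ∣ (m * rep x i + d * rep y i) - (m * rep x' i + d * rep y' i) :=
            (Dvd.intro (m : ℤ) (by push_cast; ring)).trans (h1 i)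
          have h6 : m * (rep x' i - rep x i) = -((m * rep x i + d * rep y i) -
            (m * rep x' i + d * rep y' i)) + d * (rep y i - rep y' i) := by ring
          rw [h6]
          exact dvd_add (dvd_neg.2 h5) (Dvd.intro _ rfl)
        exact hc1.dvd_of_dvd_mul_left h4
      have hy : y = y' := by
        rw [← rep_coe y, ← rep_coe y']
        funext i
        rw [ZMod.intCast_eq_intCast_iff_dvd_sub]
        have h4 : (m : ℤ) ∣ d * (rep y' i - rep y i) := by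
          have h5 : (m : ℤ) ∣ (m * rep x i + d * rep y i) - (m * rep x' i + d * rep y' i) :=
            (Dvd.intro_left (d : ℤ) (by push_cast; ring)).trans (h1 i)
          have h6 : d * (rep y' i - rep y i) = -((m * rep x i + d * rep y i) -
            (m * rep x' i + d * rep y' i)) + m * (rep x i - rep x' i) := by ring
          rw [h6]
          exact dvd_add (dvd_neg.2 h5) (Dvd.intro _ rfl)
        exact hc1.symm.dvd_of_dvd_mul_left h4
      rw [hx, hy]
    · simp [ZMod.card, mul_pow]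
  rw [← (Equiv.ofBijective φ hφ).sum_comp]
  refine Finset.sum_congr rfl fun u _ => ?_
  exact hH.rep _

lemma Qf_add_smul (a b c d : ℤ) (v u : Fin 2 → ℤ) :
    d ∣ Qf a b c (v + d • u) - Qf a b c v := by
  refine ⟨2 * a * v 0 * u 0 + b * (v 0 * u 1 + u 0 * v 1) + 2 * c * v 1 * u 1 +
    d * Qf a b c u, ?_⟩
  simp only [Qf, Pi.add_apply, Pi.smul_apply, smul_eq_mul]
  ring

/-- **[SQ]**: the finite Fourier transform of `v ↦ f v e(β Q v / d)`. -/
theorem sq {d m : ℕ} [NeZero d] [NeZero m] (hmd : m.Coprime d) {f : (Fin 2 → ℤ) → ℂ}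
    (hf : Per m f) {a b c : ℤ} {D : ℤ} (hD : 4 * a * c - b ^ 2 = D) {β γ : ℤ}
    (hβ : (d : ℤ) ∣ β * γ * D * m ^ 2 + 1) (w : Fin 2 → ℤ) :
    hat (d * m) (fun v => f v * ee (((β * Qf a b c v : ℤ) : ℂ) / (d : ℂ))) w =
      ee (((γ * Qf a b c w : ℤ) : ℂ) / (d : ℂ)) *
        (∑ x : Fin 2 → ZMod d, ee (((β * m ^ 2 * Qf a b c (rep x) : ℤ) : ℂ) / (d : ℂ))) *
        hat m (fun v => f ((d : ℤ) • v)) w := by
  have hd0 : (d : ℂ) ≠ 0 := by exact_mod_cast NeZero.ne d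
  have hm0 : (m : ℂ) ≠ 0 := by exact_mod_cast NeZero.ne m
  -- the summand as a periodic function
  let H : (Fin 2 → ℤ) → ℂ := fun v => f v * ee (((β * Qf a b c v : ℤ) : ℂ) / (d : ℂ)) *
    ee (((w 0 * v 1 - w 1 * v 0 : ℤ) : ℂ) / ((d * m : ℕ) : ℂ))
  have hH : Per (d * m) H := by
    intro v u
    have h1 : f (v + ((d * m : ℕ) : ℤ) • u) = f v := by
      have : v + ((d * m : ℕ) : ℤ) • u = v + (m : ℤ) • ((d : ℤ) • u) := by
        rw [smul_smul]
        push_cast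
        rw [mul_comm (m : ℤ) d]
      rw [this, hf]
    have h2 : ee (((β * Qf a b c (v + ((d * m : ℕ) : ℤ) • u) : ℤ) : ℂ) / (d : ℂ)) =
        ee (((β * Qf a b c v : ℤ) : ℂ) / (d : ℂ)) := by
      apply ee_congr
      rw [← mul_sub]
      refine Dvd.dvd.mul_left ((Dvd.intro (m : ℤ) ?_).trans
        (Qf_add_smul a b c ((d * m : ℕ) : ℤ) v u)) _
      push_cast; ring
    have h3 : ee (((w 0 * (v + ((d * m : ℕ) : ℤ) • u) 1 -
        w 1 * (v + ((d * m : ℕ) : ℤ) • u) 0 : ℤ) : ℂ) / ((d * m : ℕ) : ℂ)) =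
        ee (((w 0 * v 1 - w 1 * v 0 : ℤ) : ℂ) / ((d * m : ℕ) : ℂ)) := by
      apply ee_congr
      refine ⟨w 0 * u 1 - w 1 * u 0, ?_⟩
      simp only [Pi.add_apply, Pi.smul_apply, smul_eq_mul]
      ring
    simp only [H]
    rw [h1, h2, h3]
  have e1 : hat (d * m) (fun v => f v * ee (((β * Qf a b c v : ℤ) : ℂ) / (d : ℂ))) w =
      ∑ x : Fin 2 → ZMod (d * m), H (rep x) := rfl
  rw [e1, sum_crt hmd hH]
  -- the summand splits
  have e2 : ∀ (x : Fin 2 → ZMod d) (y : Fin 2 → ZMod m),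
      H ((m : ℤ) • rep x + (d : ℤ) • rep y) =
        ee (((β * m ^ 2 * Qf a b c (rep x) + (w 0 * rep x 1 - w 1 * rep x 0) : ℤ) : ℂ) / (d : ℂ)) *
        (f ((d : ℤ) • rep y) * ee (((w 0 * rep y 1 - w 1 * rep y 0 : ℤ) : ℂ) / (m : ℂ))) := by
    intro x y
    have h1 : f ((m : ℤ) • rep x + (d : ℤ) • rep y) = f ((d : ℤ) • rep y) := by
      rw [add_comm, hf]
    have h2 : ee (((β * Qf a b c ((m : ℤ) • rep x + (d : ℤ) • rep y) : ℤ) : ℂ) / (d : ℂ)) =
        ee (((β * m ^ 2 * Qf a b c (rep x) : ℤ) : ℂ) / (d : ℂ)) := by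
      apply ee_congr
      have h3 := Qf_add_smul a b c d ((m : ℤ) • rep x) (rep y)
      have h4 : Qf a b c ((m : ℤ) • rep x) = m ^ 2 * Qf a b c (rep x) := by
        simp only [Qf, Pi.smul_apply, smul_eq_mul]; ring
      rw [h4] at h3
      have h5 : β * Qf a b c ((m : ℤ) • rep x + (d : ℤ) • rep y) - β * m ^ 2 * Qf a b c (rep x) =
        β * (Qf a b c ((m : ℤ) • rep x + (d : ℤ) • rep y) - m ^ 2 * Qf a b c (rep x)) := by ring
      rw [h5]
      exact Dvd.dvd.mul_left h3 _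
    have h3 : ee (((w 0 * ((m : ℤ) • rep x + (d : ℤ) • rep y) 1 -
        w 1 * ((m : ℤ) • rep x + (d : ℤ) • rep y) 0 : ℤ) : ℂ) / ((d * m : ℕ) : ℂ)) =
        ee (((w 0 * rep x 1 - w 1 * rep x 0 : ℤ) : ℂ) / (d : ℂ)) *
        ee (((w 0 * rep y 1 - w 1 * rep y 0 : ℤ) : ℂ) / (m : ℂ)) := by
      rw [← ee_add]
      congr 1
      simp only [Pi.add_apply, Pi.smul_apply, smul_eq_mul]
      push_cast
      field_simp
      ring
    simp only [H]
    rw [h1, h2, h3]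
    have h6 : (((β * m ^ 2 * Qf a b c (rep x) + (w 0 * rep x 1 - w 1 * rep x 0) : ℤ) : ℂ) /
        (d : ℂ)) = ((β * m ^ 2 * Qf a b c (rep x) : ℤ) : ℂ) / (d : ℂ) +
        ((w 0 * rep x 1 - w 1 * rep x 0 : ℤ) : ℂ) / (d : ℂ) := by
      rw [← add_div]; push_cast; ring
    rw [h6, ee_add]
    ring
  simp_rw [e2]
  rw [← Fintype.sum_mul_sum]
  have e3 : (∑ y : Fin 2 → ZMod m, f ((d : ℤ) • rep y) *
      ee (((w 0 * rep y 1 - w 1 * rep y 0 : ℤ) : ℂ) / (m : ℂ))) =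
      hat m (fun v => f ((d : ℤ) • v)) w := rfl
  rw [e3]
  congr 1
  -- completing the square
  let K : (Fin 2 → ℤ) → ℂ := fun v =>
    ee (((β * m ^ 2 * Qf a b c v + (w 0 * v 1 - w 1 * v 0) : ℤ) : ℂ) / (d : ℂ))
  have hK : Per d K := by
    intro v u
    apply ee_congr
    obtain ⟨n, hn⟩ := Qf_add_smul a b c d v u
    refine ⟨β * m ^ 2 * n + (w 0 * u 1 - w 1 * u 0), ?_⟩
    simp only [Pi.add_apply, Pi.smul_apply, smul_eq_mul] at hn ⊢
    linear_combination (β * m ^ 2) * hn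
  -- the shift: `γ` times the adjoint matrix applied to `(-w₁, w₀)`
  let s : Fin 2 → ℤ := ![γ * (2 * c * (-w 1) - b * w 0), γ * (-b * (-w 1) + 2 * a * w 0)]
  have e4 : ∀ x : Fin 2 → ZMod d, K (rep x + s) =
      ee (((γ * Qf a b c w : ℤ) : ℂ) / (d : ℂ)) *
        ee (((β * m ^ 2 * Qf a b c (rep x) : ℤ) : ℂ) / (d : ℂ)) := by
    intro x
    rw [← ee_add, ← add_div]
    have : (((γ * Qf a b c w : ℤ) : ℂ) + ((β * m ^ 2 * Qf a b c (rep x) : ℤ) : ℂ)) =
        ((γ * Qf a b c w + β * m ^ 2 * Qf a b c (rep x) : ℤ) : ℂ) := by push_cast; ring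
    rw [this]
    apply ee_congr
    obtain ⟨n, hn⟩ := hβ
    refine ⟨n * ((w 0 * rep x 1 - w 1 * rep x 0) + γ * Qf a b c w), ?_⟩
    have hs0 : s 0 = γ * (2 * c * (-w 1) - b * w 0) := rfl
    have hs1 : s 1 = γ * (-b * (-w 1) + 2 * a * w 0) := rfl
    simp only [Qf, Pi.add_apply, hs0, hs1]
    subst hD
    linear_combination ((w 0 * rep x 1 - w 1 * rep x 0) + γ * (a * w 0 ^ 2 + b * w 0 * w 1 +
      c * w 1 ^ 2)) * hn
  have e5 := sum_shift hK s
  simp_rw [e4] at e5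
  rw [← Finset.mul_sum] at e5
  exact e5.symm

end

end Vale.Agent.P022.H138.Sq
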