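import Vale.Agent.P022.H472.Lit
import Vale.Agent.P022.H138.Sq

/-!
[LAW] from [PO] and the Gauss sum modulo a prime.
-/

namespace Vale.Agent.P022.H138

noncomputable section

open Complex Sq

/-- [GS], the Gauss sum modulo a prime -/
def GaussPrime : Prop := ∀ (ℓ : ℕ) (_ : Fact ℓ.Prime), ℓ ≠ 2 → ∀ (p q r h : ℤ) (D : ℕ),
  4 * p * r - q ^ 2 = D → Odd D → ¬ (ℓ : ℤ) ∣ p → ¬ (ℓ : ℤ) ∣ h → ¬ (ℓ : ℤ) ∣ D →
    ∑ x : Fin 2 → ZMod ℓ, ee ((h * Sq.Qf p q r (rep x) : ℤ) / (ℓ : ℂ)) = (jacobiSym ℓ D : ℂ) * ℓ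

/-- functions on `ℤ × ℤ` as functions on `Fin 2 → ℤ` -/
def toP (f : ℤ × ℤ → ℂ) : (Fin 2 → ℤ) → ℂ := fun x => f (x 0, x 1)

lemma hatF_eq (M : ℕ) [NeZero M] (f : ℤ × ℤ → ℂ) (v : ℤ × ℤ) :
    hatF M f v = Sq.hat M (toP f) ![v.1, v.2] := by
  unfold hatF Sq.hat
  obtain ⟨n, rfl⟩ := Nat.exists_eq_succ_of_ne_zero (NeZero.ne M)
  rw [← (finTwoArrowEquiv (ZMod (n + 1))).symm.sum_comp, Fintype.sum_prod_type]
  refine Finset.sum_congr rfl fun i _ => Finset.sum_congr rfl fun j _ => ?_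
  simp only [toP, Sq.rep, Sq.ee, finTwoArrowEquiv_symm_apply, Matrix.cons_val_zero,
    Matrix.cons_val_one]
  congr 2
  rw [mul_div_assoc]
  rfl

lemma per_toP {m : ℕ} {f : ℤ × ℤ → ℂ} (hf : Per m f) : Sq.Per m (toP f) := by
  intro v u
  have := hf (v 0, v 1) (u 0, u 1)
  simpa [toP] using this

lemma Qf_toP (a b c : ℤ) (v : ℤ × ℤ) : Sq.Qf a b c ![v.1, v.2] = Qf a b c v := by
  simp [Sq.Qf, Qf]

lemma Qf_toP' (a b c : ℤ) (x : Fin 2 → ℤ) : Qf a b c (x 0, x 1) = Sq.Qf a b c x := by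
  simp [Sq.Qf, Qf]

lemma ne_aux {w : ℂ} (hw : 0 < w.im) {ℓ : ℕ} (hℓ : 0 < ℓ) (C : ℤ) :
    (C * w + ℓ : ℂ) ≠ 0 := by
  intro h
  have h1 := congrArg Complex.im h
  have h2 := congrArg Complex.re h
  simp at h1 h2
  rcases h1 with h1 | h1
  · rw [h1] at h2
    simp at h2
    omega
  · exact hw.ne' h1

lemma im_pos_aux {w : ℂ} (hw : 0 < w.im) {ℓ : ℕ} (hℓ : 0 < ℓ) (C : ℤ) :
    0 < (w / (ℓ * (C * w + ℓ))).im := by
  have hℓ' : (0 : ℝ) < ℓ := by exact_mod_cast hℓ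
  have hz := ne_aux hw hℓ C
  have hz2 : 0 < normSq (C * w + ℓ : ℂ) := normSq_pos.2 hz
  have h3 : w / (ℓ * (C * w + ℓ)) =
      ((ℓ * normSq (C * w + ℓ) : ℝ)⁻¹ : ℝ) * (w * (starRingEnd ℂ) (C * w + ℓ)) := by
    have h4 : ((normSq (C * w + ℓ) : ℝ) : ℂ) = (C * w + ℓ) * (starRingEnd ℂ) (C * w + ℓ) :=
      (Complex.mul_conj _).symm
    have h5 : (starRingEnd ℂ) (C * w + ℓ) ≠ 0 := (map_ne_zero _).2 hz
    have h6 : (ℓ : ℂ) ≠ 0 := by exact_mod_cast hℓ.ne'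
    push_cast
    rw [h4]
    generalize (starRingEnd ℂ) (C * w + ℓ) = u at h5
    generalize (C * w + ℓ : ℂ) = z at hz
    field_simp
  rw [h3, Complex.im_ofReal_mul]
  refine mul_pos (inv_pos.2 (mul_pos hℓ' hz2)) ?_
  simp only [mul_im, conj_re, conj_im, add_re, add_im, mul_re, intCast_re, intCast_im,
    natCast_re, natCast_im, zero_mul, sub_zero, add_zero]
  have : w.re * -(↑C * w.im) + w.im * (↑C * w.re + ↑ℓ) = ℓ * w.im := by ring
  rw [this]
  exact mul_pos hℓ' hw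

/-- the law for a matrix whose last entry is a suitable prime -/
theorem law_prime (hPO : POStmt) (hGS : GaussPrime) {a b c : ℤ} {D : ℕ} (ha : 0 < a) (hDo : Odd D)
    (hD : b ^ 2 - 4 * a * c = -(D : ℤ)) {κ m : ℕ} (hm : 0 < m) {f : ℤ × ℤ → ℂ} (hf : Per m f)
    {A B C : ℤ} {ℓ : ℕ} (hℓ : ℓ.Prime) (hℓ2 : ℓ ≠ 2) (hℓa : ¬ (ℓ : ℤ) ∣ a) (hℓD : ¬ (ℓ : ℤ) ∣ D)
    (hdet : A * ℓ - B * C = 1) (hC : ((D * m ^ 2 : ℕ) : ℤ) ∣ C) {w : ℂ} (hw : 0 < w.im) :
    th a b c D κ f ((A * w + B) / (C * w + ℓ)) =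
      jacobiSym ℓ D * (C * w + ℓ) ^ (κ + 1) * th a b c D κ (fun v => f ((ℓ : ℤ) • v)) w := by
  have hD0 : 0 < D := hDo.pos
  have : Fact ℓ.Prime := ⟨hℓ⟩
  have : NeZero ℓ := ⟨hℓ.ne_zero⟩
  have : NeZero m := ⟨hm.ne'⟩
  obtain ⟨c', hc'⟩ := hC
  have hℓm : ¬ (ℓ : ℤ) ∣ m := by
    intro h
    have h1 : (ℓ : ℤ) ∣ C := by
      rw [hc']
      push_cast
      exact Dvd.dvd.mul_right (Dvd.dvd.mul_left (dvd_pow h two_ne_zero) _) _
    have h2 : (ℓ : ℤ) ∣ 1 := by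
      rw [← hdet]
      exact dvd_sub (Dvd.intro_left _ rfl) (Dvd.dvd.mul_left h1 _)
    have h3 := Int.natAbs_dvd_natAbs.2 h2
    simp at h3
    exact hℓ.one_lt.ne' h3
  have hcop : m.Coprime ℓ := by
    rw [Nat.coprime_comm, Nat.Prime.coprime_iff_not_dvd hℓ]
    intro h
    exact hℓm (by exact_mod_cast h)
  have hpi : Prime (ℓ : ℤ) := Nat.prime_iff_prime_int.1 hℓ
  have hℓB : ¬ (ℓ : ℤ) ∣ B * m ^ 2 := by
    intro h
    rcases hpi.dvd_or_dvd h with h | h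
    · have h2 : (ℓ : ℤ) ∣ 1 := by
        rw [← hdet]
        exact dvd_sub (Dvd.intro_left _ rfl) (Dvd.dvd.mul_right h _)
      exact hpi.not_dvd_one h2
    · exact hℓm (hpi.dvd_of_dvd_pow h)
  -- notation
  have hℓ0 : (ℓ : ℂ) ≠ 0 := by exact_mod_cast hℓ.ne_zero
  have hm0 : (m : ℂ) ≠ 0 := by exact_mod_cast hm.ne'
  have hDc : (D : ℂ) ≠ 0 := by exact_mod_cast hD0.ne'
  have hsD : (Real.sqrt D : ℂ) ≠ 0 := by
    have : Real.sqrt D ≠ 0 := (Real.sqrt_pos.2 (by exact_mod_cast hD0)).ne'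
    exact_mod_cast this
  have hz := ne_aux hw hℓ.pos C
  have hw0 : w ≠ 0 := by rintro rfl; simp at hw
  obtain ⟨z, hzd⟩ : ∃ z : ℂ, z = C * w + ℓ := ⟨_, rfl⟩
  rw [← hzd] at hz ⊢
  obtain ⟨t, ht⟩ : ∃ t : ℂ, t = w / (ℓ * z) := ⟨_, rfl⟩
  have htim : 0 < t.im := by
    rw [ht, hzd]
    exact im_pos_aux hw hℓ.pos C
  have ht0 : t ≠ 0 := by rintro h; rw [h] at htim; simp at htim
  have hdetC : (A * ℓ - B * C : ℂ) = 1 := by exact_mod_cast hdet
  have hcC : (C : ℂ) = D * m ^ 2 * c' := by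
    have := congrArg (Int.cast : ℤ → ℂ) hc'
    push_cast at this
    exact this
  -- step 1: translate
  have hγ : (A * w + B) / z = B / ℓ + t := by
    rw [ht]
    field_simp
    rw [hzd]
    linear_combination (w) * hdetC
  let F : ℤ × ℤ → ℂ := fun v => f v * ee (((B * Qf a b c v : ℤ) : ℂ) / (ℓ : ℂ))
  have s1 : th a b c D κ f ((A * w + B) / z) = th a b c D κ F t := by
    unfold th
    refine tsum_congr fun v => ?_
    simp only [thT, F, hγ, ee]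
    have : cexp (2 * Real.pi * I * (Qf a b c v : ℂ) * (B / ℓ + t)) =
        cexp (2 * Real.pi * I * (((B * Qf a b c v : ℤ) : ℂ) / ℓ)) *
          cexp (2 * Real.pi * I * (Qf a b c v : ℂ) * t) := by
      rw [← Complex.exp_add]
      congr 1
      push_cast
      ring
    rw [this]
    ring
  have hF : Per (ℓ * m) F := by
    intro v u
    have h1 : f (v + ((ℓ * m : ℕ) : ℤ) • u) = f v := by
      have : v + ((ℓ * m : ℕ) : ℤ) • u = v + (m : ℤ) • ((ℓ : ℤ) • u) := by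
        rw [smul_smul]
        push_cast
        rw [mul_comm (m : ℤ) ℓ]
      rw [this, hf]
    simp only [F]
    rw [h1]
    congr 1
    apply ee_congr
    rw [← mul_sub]
    refine Dvd.dvd.mul_left ?_ _
    have h2 := Sq.Qf_add_smul a b c ((ℓ * m : ℕ) : ℤ) ![v.1, v.2] ![u.1, u.2]
    rw [Qf_toP] at h2
    have h3 : (![v.1, v.2] + ((ℓ * m : ℕ) : ℤ) • ![u.1, u.2] : Fin 2 → ℤ) =
        ![(v + ((ℓ * m : ℕ) : ℤ) • u).1, (v + ((ℓ * m : ℕ) : ℤ) • u).2] := by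
      funext i
      fin_cases i <;> simp
    rw [h3, Qf_toP] at h2
    exact (Dvd.intro (m : ℤ) (by push_cast; ring)).trans h2
  -- step 2: Poisson for `F`
  have s2 := (hPO a b c D ha hD0 hD κ (ℓ * m) (Nat.mul_pos hℓ.pos hm) F hF t htim).2
  -- step 3: Poisson for `f (ℓ •)`
  let g : ℤ × ℤ → ℂ := fun v => f ((ℓ : ℤ) • v)
  have hg : Per m g := by
    intro v u
    simp only [g]
    rw [smul_add, smul_comm, hf]
  have s3 := (hPO a b c D ha hD0 hD κ m hm g hg w hw).2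
  -- step 4: the finite Fourier transform
  obtain ⟨G, hG⟩ : ∃ G : ℂ, G = (jacobiSym ℓ D : ℂ) * ℓ := ⟨_, rfl⟩
  have s4 : ∀ v, hatF (ℓ * m) F v =
      ee (((c' * Qf a b c v : ℤ) : ℂ) / (ℓ : ℂ)) * G * hatF m g v := by
    intro v
    rw [hatF_eq, hatF_eq]
    have h4 : 4 * a * c - b ^ 2 = (D : ℤ) := by linarith
    have hβ : (ℓ : ℤ) ∣ B * c' * D * m ^ 2 + 1 := by
      refine ⟨A, ?_⟩
      rw [hc'] at hdet
      push_cast at hdet
      linarith
    have h5 := Sq.sq hcop (per_toP hf) h4 hβ ![v.1, v.2]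
    rw [Qf_toP] at h5
    have h6 : toP F = fun x => toP f x * ee (((B * Sq.Qf a b c x : ℤ) : ℂ) / (ℓ : ℂ)) := by
      funext x
      simp only [toP, F, Qf_toP']
    have h7 : toP g = fun x => toP f ((ℓ : ℤ) • x) := by
      funext x
      simp only [toP, g]
      congr 1
    rw [h6, h5, h7]
    have h8 := hGS ℓ ⟨hℓ⟩ hℓ2 a b c (B * m ^ 2) D h4 hDo hℓa hℓB hℓD
    rw [h8, ← hG]
  -- step 5: the dual series
  have s5 : th a b c D κ (hatF (ℓ * m) F) (-1 / (D * ((ℓ * m : ℕ) : ℂ) ^ 2 * t)) =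
      G * th a b c D κ (hatF m g) (-1 / (D * (m : ℂ) ^ 2 * w)) := by
    unfold th
    rw [← tsum_mul_left]
    refine tsum_congr fun v => ?_
    simp only [thT]
    rw [s4]
    have h9 : (-1 / (D * ((ℓ * m : ℕ) : ℂ) ^ 2 * t)) = -(c' / ℓ) + -1 / (D * (m : ℂ) ^ 2 * w) := by
      rw [ht]
      push_cast
      field_simp
      rw [hzd, hcC]
      ring
    rw [h9]
    have h10 : cexp (2 * Real.pi * I * (Qf a b c v : ℂ) * (-(c' / ℓ) +
        -1 / (D * (m : ℂ) ^ 2 * w))) * ee (((c' * Qf a b c v : ℤ) : ℂ) / (ℓ : ℂ)) =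
        cexp (2 * Real.pi * I * (Qf a b c v : ℂ) * (-1 / (D * (m : ℂ) ^ 2 * w))) := by
      unfold ee
      rw [← Complex.exp_add]
      congr 1
      push_cast
      ring
    rw [← h10]
    ring
  rw [s1, s2, s5]
  change _ = _ * th a b c D κ g w
  rw [s3, hG, ht]
  push_cast
  have key : ((ℓ : ℂ) * m) ^ κ * (I / ((Real.sqrt D : ℂ) * ((ℓ : ℂ) * m) ^ 2 *
      (w / (ℓ * z)))) ^ (κ + 1) * ℓ =
      z ^ (κ + 1) * ((m : ℂ) ^ κ * (I / ((Real.sqrt D : ℂ) * m ^ 2 * w)) ^ (κ + 1)) := by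
    have h11 : I / ((Real.sqrt D : ℂ) * ((ℓ : ℂ) * m) ^ 2 * (w / (ℓ * z))) =
        (z / ℓ) * (I / ((Real.sqrt D : ℂ) * m ^ 2 * w)) := by
      field_simp
    rw [h11]
    generalize I / ((Real.sqrt D : ℂ) * m ^ 2 * w) = u
    have h12 : (ℓ : ℂ) ^ (κ + 1) ≠ 0 := pow_ne_zero _ hℓ0
    have h13 : ((ℓ : ℂ) * m) ^ κ * (z / ℓ * u) ^ (κ + 1) * ℓ =
        ((ℓ : ℂ) ^ (κ + 1) / ℓ ^ (κ + 1)) * (z ^ (κ + 1) * (m ^ κ * u ^ (κ + 1))) := by
      rw [mul_pow, mul_pow, div_pow]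
      ring
    rw [h13, div_self h12, one_mul]
  linear_combination ((jacobiSym ℓ D : ℤ) : ℂ) *
    th a b c D κ (hatF m g) (-1 / (D * (m : ℂ) ^ 2 * w)) * key

/-- periodicity under integer translations -/
lemma th_add_int (a b c : ℤ) (D κ : ℕ) (f : ℤ × ℤ → ℂ) (n : ℤ) (w : ℂ) :
    th a b c D κ f (w + n) = th a b c D κ f w := by
  unfold th
  refine tsum_congr fun v => ?_
  simp only [thT]
  congr 1
  rw [mul_add, Complex.exp_add]
  have h : cexp (2 * Real.pi * I * (Qf a b c v : ℂ) * (n : ℂ)) = 1 := by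
    rw [Complex.exp_eq_one_iff]
    exact ⟨Qf a b c v * n, by push_cast; ring⟩
  rw [h, mul_one]

lemma th_neg (a b c : ℤ) (D κ : ℕ) (f : ℤ × ℤ → ℂ) (w : ℂ) :
    th a b c D κ (fun v => f (-v)) w = (-1) ^ κ * th a b c D κ f w := by
  unfold th
  rw [← tsum_mul_left, ← (Equiv.neg (ℤ × ℤ)).tsum_eq]
  refine tsum_congr fun v => ?_
  simp only [thT, Equiv.neg_apply, neg_neg]
  have h1 : ev a b D (-v) = (-1) * ev a b D v := by
    simp [ev]
    ring
  have h2 : Qf a b c (-v) = Qf a b c v := by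
    simp [Qf]
  rw [h1, h2, mul_pow]
  ring

/-- **[LAW]** from [PO] and the Gauss sum modulo a prime -/
theorem law (hPO : POStmt) (hGS : GaussPrime) : LAWStmt := by
  intro a b c D ha hDo hD κ m hm f hf A B C d hdet hC w hw
  have hD0 : 0 < D := hDo.pos
  have hDC : (D : ℤ) ∣ C := (Dvd.intro ((m : ℤ) ^ 2) (by push_cast; ring)).trans hC
  have hmC : (m : ℤ) ∣ C := (Dvd.intro_left ((D : ℤ) * m) (by push_cast; ring)).trans hC
  by_cases hC0 : C = 0
  · -- translations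
    subst hC0
    have h1 : A * d = 1 := by linarith
    have hD3 : D % 4 = 3 := by
      have h2 : Odd b := by
        by_contra hb
        rw [Int.not_odd_iff_even] at hb
        obtain ⟨n, hn⟩ := hb
        obtain ⟨k, hk⟩ := hDo
        rw [hn, hk] at hD
        push_cast at hD
        ring_nf at hD
        omega
      obtain ⟨n, hn⟩ := h2
      rw [hn] at hD
      have h3 : (D : ℤ) = 4 * (a * c - n ^ 2 - n) - 1 := by linarith
      omega
    rcases Int.mul_eq_one_iff_eq_one_or_neg_one.1 h1 with ⟨hA, hd⟩ | ⟨hA, hd⟩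
    · subst hA hd
      have h4 : (((1 : ℤ) : ℂ) * w + B) / (((0 : ℤ) : ℂ) * w + ((1 : ℤ) : ℂ)) = w + B := by
        push_cast
        ring_nf
      rw [h4, th_add_int, jacobiSym.one_left]
      simp
    · subst hA hd
      have h4 : (((-1 : ℤ) : ℂ) * w + B) / (((0 : ℤ) : ℂ) * w + ((-1 : ℤ) : ℂ)) =
          w + ((-B : ℤ) : ℂ) := by
        push_cast
        ring_nf
      have h5 : (fun v => f ((-1 : ℤ) • v)) = fun v => f (-v) := by
        funext v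
        simp
      rw [h4, th_add_int, h5, th_neg, jacobiSym.at_neg_one hDo]
      have h6 : ZMod.χ₄ (D : ZMod 4) = -1 := ZMod.χ₄_nat_three_mod_four hD3
      rw [h6]
      push_cast
      have h7 : ((-1 : ℂ) ^ κ) * (-1) ^ κ = 1 := by
        rw [← mul_pow]; norm_num
      have h8 : -1 * ((0 : ℂ) * w + -1) ^ (κ + 1) * ((-1) ^ κ * th a b c D κ f w) =
          ((-1 : ℂ) ^ κ * (-1) ^ κ) * th a b c D κ f w := by
        rw [zero_mul, zero_add, pow_succ]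
        ring
      rw [h8, h7, one_mul]
  · -- make the last entry a prime
    have hcop : IsCoprime d (C.natAbs : ℤ) := by
      have h1 : IsCoprime d C := ⟨A, -B, by linarith⟩
      rcases Int.natAbs_eq C with h | h
      · rw [h] at h1; exact h1
      · rw [h] at h1
        simpa using h1.neg_right
    obtain ⟨ℓ, hℓn, hℓ, hmod⟩ := Nat.forall_exists_prime_gt_and_zmodEq
      (2 + a.natAbs + D) (Int.natAbs_ne_zero.2 hC0) hcop
    have h2 : C ∣ (ℓ : ℤ) - d := by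
      have := hmod.symm.dvd
      exact Int.natAbs_dvd.1 this
    obtain ⟨n, hn⟩ := h2
    have hℓ2 : ℓ ≠ 2 := by omega
    have hℓa : ¬ (ℓ : ℤ) ∣ a := by
      intro h
      have h3 := Int.le_of_dvd ha h
      omega
    have hℓD : ¬ (ℓ : ℤ) ∣ D := by
      intro h
      have h3 := Int.le_of_dvd (by exact_mod_cast hD0) h
      omega
    have hdet' : A * ℓ - (B + n * A) * C = 1 := by
      have : (ℓ : ℤ) = d + C * n := by linarith
      rw [this]
      linarith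
    have hwn : 0 < (w + ((-n : ℤ) : ℂ)).im := by
      simpa using hw
    have key := law_prime hPO hGS ha hDo hD (κ := κ) hm hf hℓ hℓ2 hℓa hℓD hdet' hC hwn
    have h3 : (C : ℂ) * (w + ((-n : ℤ) : ℂ)) + ℓ = C * w + d := by
      have : (ℓ : ℂ) = d + C * n := by
        have h4 : (ℓ : ℤ) = d + C * n := by linarith
        have h5 := congrArg (Int.cast : ℤ → ℂ) h4
        push_cast at h5
        exact h5
      rw [this]
      push_cast
      ring
    have h4 : (A : ℂ) * (w + ((-n : ℤ) : ℂ)) + ((B + n * A : ℤ) : ℂ) = A * w + B := by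
      push_cast
      ring
    rw [h3, h4, th_add_int] at key
    rw [key]
    have h5 : (fun v => f ((ℓ : ℤ) • v)) = fun v => f (d • v) := by
      funext v
      obtain ⟨k, hk⟩ := hmC
      have : (ℓ : ℤ) • v = d • v + (m : ℤ) • ((k * n) • v) := by
        rw [smul_smul, ← add_smul]
        congr 1
        rw [hk] at hn
        linarith
      rw [this, hf]
    have h6 : jacobiSym ℓ D = jacobiSym d D := by
      apply jacobiSym.mod_left'
      apply Int.ModEq.symm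
      rw [Int.modEq_iff_dvd, hn]
      exact Dvd.dvd.mul_right hDC _
    rw [h5, h6]

end

end Vale.Agent.P022.H138
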