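import Vale.Agent.P022.H138.Law
import Vale.Agent.P022.H866.Gs
import Vale.Agent.P022.H776.Jace

/-!
[LAWE]: the law under `Γ₀(D m²)` for every `D` (odd or even), with the Kronecker symbol
`(-D / d)` = `kr v D₀ d`, `D = 2 ^ v D₀`.
-/

namespace Vale.Agent.P022.H138

noncomputable section

open Complex Sq

/-- the law for a matrix whose last entry is a prime, with the value `χ` of the Gauss sum -/
theorem law_prime_gen (hPO : POStmt) {a b c : ℤ} {D : ℕ} (ha : 0 < a) (hD0 : 0 < D)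
    (hD : b ^ 2 - 4 * a * c = -(D : ℤ)) {κ m : ℕ} (hm : 0 < m) {f : ℤ × ℤ → ℂ} (hf : Per m f)
    {A B C : ℤ} {ℓ : ℕ} [NeZero ℓ] (hℓ : ℓ.Prime) (χ : ℤ)
    (hχ : ¬ (ℓ : ℤ) ∣ B * m ^ 2 → ∑ x : Fin 2 → ZMod ℓ,
      ee ((((B * m ^ 2) * Sq.Qf a b c (rep x) : ℤ) : ℂ) / (ℓ : ℂ)) = (χ : ℂ) * ℓ)
    (hdet : A * ℓ - B * C = 1) (hC : ((D * m ^ 2 : ℕ) : ℤ) ∣ C) {w : ℂ} (hw : 0 < w.im) :
    th a b c D κ f ((A * w + B) / (C * w + ℓ)) =
      χ * (C * w + ℓ) ^ (κ + 1) * th a b c D κ (fun v => f ((ℓ : ℤ) • v)) w := by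
  have : Fact ℓ.Prime := ⟨hℓ⟩
  have : NeZero m := ⟨hm.ne'⟩
  obtain ⟨c', hc'⟩ := hC
  have hℓm : ¬ (ℓ : ℤ) ∣ m := by
    intro h
    have h1 : (ℓ : ℤ) ∣ C := by
      rw [hc']
      push_cast
      exact Dvd.dvd.mul_right (Dvd.dvd.mul_left (dvd_pow h two_ne_zero) _) _
    have h2 : (ℓ : ℤ) ∣ 1 := by
      rw [← hdet]
      exact dvd_sub (Dvd.intro_left _ rfl) (Dvd.dvd.mul_left h1 _)
    have h3 := Int.natAbs_dvd_natAbs.2 h2
    simp at h3
    exact hℓ.one_lt.ne' h3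
  have hcop : m.Coprime ℓ := by
    rw [Nat.coprime_comm, Nat.Prime.coprime_iff_not_dvd hℓ]
    intro h
    exact hℓm (by exact_mod_cast h)
  have hpi : Prime (ℓ : ℤ) := Nat.prime_iff_prime_int.1 hℓ
  have hℓB : ¬ (ℓ : ℤ) ∣ B * m ^ 2 := by
    intro h
    rcases hpi.dvd_or_dvd h with h | h
    · have h2 : (ℓ : ℤ) ∣ 1 := by
        rw [← hdet]
        exact dvd_sub (Dvd.intro_left _ rfl) (Dvd.dvd.mul_right h _)
      exact hpi.not_dvd_one h2
    · exact hℓm (hpi.dvd_of_dvd_pow h)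
  -- notation
  have hℓ0 : (ℓ : ℂ) ≠ 0 := by exact_mod_cast hℓ.ne_zero
  have hm0 : (m : ℂ) ≠ 0 := by exact_mod_cast hm.ne'
  have hDc : (D : ℂ) ≠ 0 := by exact_mod_cast hD0.ne'
  have hsD : (Real.sqrt D : ℂ) ≠ 0 := by
    have : Real.sqrt D ≠ 0 := (Real.sqrt_pos.2 (by exact_mod_cast hD0)).ne'
    exact_mod_cast this
  have hz := ne_aux hw hℓ.pos C
  have hw0 : w ≠ 0 := by rintro rfl; simp at hw
  obtain ⟨z, hzd⟩ : ∃ z : ℂ, z = C * w + ℓ := ⟨_, rfl⟩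
  rw [← hzd] at hz ⊢
  obtain ⟨t, ht⟩ : ∃ t : ℂ, t = w / (ℓ * z) := ⟨_, rfl⟩
  have htim : 0 < t.im := by
    rw [ht, hzd]
    exact im_pos_aux hw hℓ.pos C
  have ht0 : t ≠ 0 := by rintro h; rw [h] at htim; simp at htim
  have hdetC : (A * ℓ - B * C : ℂ) = 1 := by exact_mod_cast hdet
  have hcC : (C : ℂ) = D * m ^ 2 * c' := by
    have := congrArg (Int.cast : ℤ → ℂ) hc'
    push_cast at this
    exact this
  -- step 1: translate
  have hγ : (A * w + B) / z = B / ℓ + t := by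
    rw [ht]
    field_simp
    rw [hzd]
    linear_combination (w) * hdetC
  let F : ℤ × ℤ → ℂ := fun v => f v * ee (((B * Qf a b c v : ℤ) : ℂ) / (ℓ : ℂ))
  have s1 : th a b c D κ f ((A * w + B) / z) = th a b c D κ F t := by
    unfold th
    refine tsum_congr fun v => ?_
    simp only [thT, F, hγ, ee]
    have : cexp (2 * Real.pi * I * (Qf a b c v : ℂ) * (B / ℓ + t)) =
        cexp (2 * Real.pi * I * (((B * Qf a b c v : ℤ) : ℂ) / ℓ)) *
          cexp (2 * Real.pi * I * (Qf a b c v : ℂ) * t) := by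
      rw [← Complex.exp_add]
      congr 1
      push_cast
      ring
    rw [this]
    ring
  have hF : Per (ℓ * m) F := by
    intro v u
    have h1 : f (v + ((ℓ * m : ℕ) : ℤ) • u) = f v := by
      have : v + ((ℓ * m : ℕ) : ℤ) • u = v + (m : ℤ) • ((ℓ : ℤ) • u) := by
        rw [smul_smul]
        push_cast
        rw [mul_comm (m : ℤ) ℓ]
      rw [this, hf]
    simp only [F]
    rw [h1]
    congr 1
    apply ee_congr
    rw [← mul_sub]
    refine Dvd.dvd.mul_left ?_ _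
    have h2 := Sq.Qf_add_smul a b c ((ℓ * m : ℕ) : ℤ) ![v.1, v.2] ![u.1, u.2]
    rw [Qf_toP] at h2
    have h3 : (![v.1, v.2] + ((ℓ * m : ℕ) : ℤ) • ![u.1, u.2] : Fin 2 → ℤ) =
        ![(v + ((ℓ * m : ℕ) : ℤ) • u).1, (v + ((ℓ * m : ℕ) : ℤ) • u).2] := by
      funext i
      fin_cases i <;> simp
    rw [h3, Qf_toP] at h2
    exact (Dvd.intro (m : ℤ) (by push_cast; ring)).trans h2
  -- step 2: Poisson for `F`
  have s2 := (hPO a b c D ha hD0 hD κ (ℓ * m) (Nat.mul_pos hℓ.pos hm) F hF t htim).2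
  -- step 3: Poisson for `f (ℓ •)`
  let g : ℤ × ℤ → ℂ := fun v => f ((ℓ : ℤ) • v)
  have hg : Per m g := by
    intro v u
    simp only [g]
    rw [smul_add, smul_comm, hf]
  have s3 := (hPO a b c D ha hD0 hD κ m hm g hg w hw).2
  -- step 4: the finite Fourier transform
  obtain ⟨G, hG⟩ : ∃ G : ℂ, G = (χ : ℂ) * ℓ := ⟨_, rfl⟩
  have s4 : ∀ v, hatF (ℓ * m) F v =
      ee (((c' * Qf a b c v : ℤ) : ℂ) / (ℓ : ℂ)) * G * hatF m g v := by
    intro v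
    rw [hatF_eq, hatF_eq]
    have h4 : 4 * a * c - b ^ 2 = (D : ℤ) := by linarith
    have hβ : (ℓ : ℤ) ∣ B * c' * D * m ^ 2 + 1 := by
      refine ⟨A, ?_⟩
      rw [hc'] at hdet
      push_cast at hdet
      linarith
    have h5 := Sq.sq hcop (per_toP hf) h4 hβ ![v.1, v.2]
    rw [Qf_toP] at h5
    have h6 : toP F = fun x => toP f x * ee (((B * Sq.Qf a b c x : ℤ) : ℂ) / (ℓ : ℂ)) := by
      funext x
      simp only [toP, F, Qf_toP']
    have h7 : toP g = fun x => toP f ((ℓ : ℤ) • x) := by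
      funext x
      simp only [toP, g]
      congr 1
    rw [h6, h5, h7]
    rw [hχ hℓB, ← hG]
  -- step 5: the dual series
  have s5 : th a b c D κ (hatF (ℓ * m) F) (-1 / (D * ((ℓ * m : ℕ) : ℂ) ^ 2 * t)) =
      G * th a b c D κ (hatF m g) (-1 / (D * (m : ℂ) ^ 2 * w)) := by
    unfold th
    rw [← tsum_mul_left]
    refine tsum_congr fun v => ?_
    simp only [thT]
    rw [s4]
    have h9 : (-1 / (D * ((ℓ * m : ℕ) : ℂ) ^ 2 * t)) = -(c' / ℓ) + -1 / (D * (m : ℂ) ^ 2 * w) := by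
      rw [ht]
      push_cast
      field_simp
      rw [hzd, hcC]
      ring
    rw [h9]
    have h10 : cexp (2 * Real.pi * I * (Qf a b c v : ℂ) * (-(c' / ℓ) +
        -1 / (D * (m : ℂ) ^ 2 * w))) * ee (((c' * Qf a b c v : ℤ) : ℂ) / (ℓ : ℂ)) =
        cexp (2 * Real.pi * I * (Qf a b c v : ℂ) * (-1 / (D * (m : ℂ) ^ 2 * w))) := by
      unfold ee
      rw [← Complex.exp_add]
      congr 1
      push_cast
      ring
    rw [← h10]
    ring
  rw [s1, s2, s5]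
  change _ = _ * th a b c D κ g w
  rw [s3, hG, ht]
  push_cast
  have key : ((ℓ : ℂ) * m) ^ κ * (I / ((Real.sqrt D : ℂ) * ((ℓ : ℂ) * m) ^ 2 *
      (w / (ℓ * z)))) ^ (κ + 1) * ℓ =
      z ^ (κ + 1) * ((m : ℂ) ^ κ * (I / ((Real.sqrt D : ℂ) * m ^ 2 * w)) ^ (κ + 1)) := by
    have h11 : I / ((Real.sqrt D : ℂ) * ((ℓ : ℂ) * m) ^ 2 * (w / (ℓ * z))) =
        (z / ℓ) * (I / ((Real.sqrt D : ℂ) * m ^ 2 * w)) := by
      field_simp
    rw [h11]
    generalize I / ((Real.sqrt D : ℂ) * m ^ 2 * w) = u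
    have h12 : (ℓ : ℂ) ^ (κ + 1) ≠ 0 := pow_ne_zero _ hℓ0
    have h13 : ((ℓ : ℂ) * m) ^ κ * (z / ℓ * u) ^ (κ + 1) * ℓ =
        ((ℓ : ℂ) ^ (κ + 1) / ℓ ^ (κ + 1)) * (z ^ (κ + 1) * (m ^ κ * u ^ (κ + 1))) := by
      rw [mul_pow, mul_pow, div_pow]
      ring
    rw [h13, div_self h12, one_mul]
  linear_combination (χ : ℂ) *
    th a b c D κ (hatF m g) (-1 / (D * (m : ℂ) ^ 2 * w)) * key

/-- the Gauss sum modulo a prime, any discriminant -/
theorem gauss_any (ℓ : ℕ) [Fact ℓ.Prime] (hℓ : ℓ ≠ 2) (p q r h : ℤ) (D : ℕ)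
    (hD : 4 * p * r - q ^ 2 = D) (hp : ¬ (ℓ : ℤ) ∣ p) (hh : ¬ (ℓ : ℤ) ∣ h)
    (hl : ¬ (ℓ : ℤ) ∣ D) :
    ∑ x : Fin 2 → ZMod ℓ, ee ((h * Sq.Qf p q r (rep x) : ℤ) / (ℓ : ℂ)) =
      (jacobiSym (-(D : ℤ)) ℓ : ℂ) * ℓ := by
  have hc : ∀ z : ℤ, ¬ (ℓ : ℤ) ∣ z → ((z : ℤ) : ZMod ℓ) ≠ 0 := fun z hz h0 =>
    hz ((ZMod.intCast_zmod_eq_zero_iff_dvd z ℓ).1 h0)
  have hF : ringChar (ZMod ℓ) ≠ 2 := by rwa [ZMod.ringChar_zmod_n]
  have hD' : (4 : ZMod ℓ) * (p : ZMod ℓ) * (r : ZMod ℓ) - (q : ZMod ℓ) ^ 2 = ((D : ℤ) : ZMod ℓ) := by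
    rw [← hD]; push_cast; ring
  have h1 := H866.sum_form (ZMod.isPrimitive_stdAddChar ℓ) hF hD' (hc p hp) (hc h hh) (hc _ hl)
  have h2 : ∀ x : Fin 2 → ZMod ℓ, ee ((h * Sq.Qf p q r (rep x) : ℤ) / (ℓ : ℂ)) =
      (fun y : ZMod ℓ × ZMod ℓ => ZMod.stdAddChar ((h : ZMod ℓ) *
        ((p : ZMod ℓ) * y.1 ^ 2 + (q : ZMod ℓ) * y.1 * y.2 + (r : ZMod ℓ) * y.2 ^ 2)))
        (finTwoArrowEquiv (ZMod ℓ) x) := by
    intro x
    have h3 : ee ((h * Sq.Qf p q r (rep x) : ℤ) / (ℓ : ℂ)) =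
        cexp (2 * Real.pi * I * ((h * Sq.Qf p q r (rep x) : ℤ) : ℂ) / ℓ) := by
      unfold ee
      rw [mul_div_assoc]
    rw [h3, ← ZMod.stdAddChar_coe]
    change ZMod.stdAddChar _ = ZMod.stdAddChar ((h : ZMod ℓ) *
        ((p : ZMod ℓ) * (x 0) ^ 2 + (q : ZMod ℓ) * (x 0) * (x 1) + (r : ZMod ℓ) * (x 1) ^ 2))
    congr 1
    simp only [Sq.Qf, Sq.rep]
    push_cast
    simp only [ZMod.natCast_val, ZMod.cast_id', id_eq]
  refine (Finset.sum_congr rfl fun x _ => h2 x).trans ((Equiv.sum_comp (finTwoArrowEquiv (ZMod ℓ))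
    (fun y : ZMod ℓ × ZMod ℓ => ZMod.stdAddChar ((h : ZMod ℓ) *
        ((p : ZMod ℓ) * y.1 ^ 2 + (q : ZMod ℓ) * y.1 * y.2 + (r : ZMod ℓ) * y.2 ^ 2)))).trans ?_)
  rw [h1, ZMod.card]
  congr 1
  have h3 : (quadraticChar (ZMod ℓ) (-((D : ℤ) : ZMod ℓ)) : ℤ) = jacobiSym (-(D : ℤ)) ℓ := by
    rw [← jacobiSym.legendreSym.to_jacobiSym, legendreSym]
    push_cast
    rfl
  rw [h3]

/-- [LAWE] the law under `Γ₀(D m²)`, `D = 2 ^ v D₀`, last entry odd -/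
def LAWEStmt : Prop := ∀ (a b c : ℤ) (D v D₀ : ℕ) (_ : 0 < a) (_ : D = 2 ^ v * D₀) (_ : Odd D₀)
  (_ : b ^ 2 - 4 * a * c = -(D : ℤ)) (κ m : ℕ) (_ : 0 < m) (f : ℤ × ℤ → ℂ) (_ : Per m f)
  (A B C d : ℤ) (_ : Odd d) (_ : A * d - B * C = 1) (_ : ((D * m ^ 2 : ℕ) : ℤ) ∣ C) (w : ℂ)
  (_ : 0 < w.im),
  th a b c D κ f ((A * w + B) / (C * w + d)) =
    H776.kr v D₀ d * (C * w + d) ^ (κ + 1) * th a b c D κ (fun v => f (d • v)) w

/-- **[LAWE]** -/
theorem LAWE (hPO : POStmt) : LAWEStmt := by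
  intro a b c D v D₀ ha hDv hD₀ hD κ m hm f hf A B C d hdo hdet hC w hw
  have hD₀0 : 0 < D₀ := hD₀.pos
  have hD0 : 0 < D := by rw [hDv]; positivity
  have hDC : (D : ℤ) ∣ C := (Dvd.intro ((m : ℤ) ^ 2) (by push_cast; ring)).trans hC
  have hD₀C : (D₀ : ℤ) ∣ C := (Dvd.intro_left ((2 : ℤ) ^ v) (by rw [hDv]; push_cast; ring)).trans hDC
  have hmC : (m : ℤ) ∣ C := (Dvd.intro_left ((D : ℤ) * m) (by push_cast; ring)).trans hC
  by_cases hC0 : C = 0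
  · -- translations
    subst hC0
    have h1 : A * d = 1 := by linarith
    rcases Int.mul_eq_one_iff_eq_one_or_neg_one.1 h1 with ⟨hA, hd⟩ | ⟨hA, hd⟩
    · subst hA hd
      have h4 : (((1 : ℤ) : ℂ) * w + B) / (((0 : ℤ) : ℂ) * w + ((1 : ℤ) : ℂ)) = w + B := by
        push_cast
        ring_nf
      rw [h4, th_add_int, H776.kr_one]
      simp
    · subst hA hd
      have h4 : (((-1 : ℤ) : ℂ) * w + B) / (((0 : ℤ) : ℂ) * w + ((-1 : ℤ) : ℂ)) =
          w + ((-B : ℤ) : ℂ) := by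
        push_cast
        ring_nf
      have h5 : (fun v => f ((-1 : ℤ) • v)) = fun v => f (-v) := by
        funext v
        simp
      rw [h4, th_add_int, h5, th_neg, H776.kr_neg_one hD₀]
      push_cast
      have h7 : ((-1 : ℂ) ^ κ) * (-1) ^ κ = 1 := by
        rw [← mul_pow]; norm_num
      have h8 : -1 * ((0 : ℂ) * w + -1) ^ (κ + 1) * ((-1) ^ κ * th a b c D κ f w) =
          ((-1 : ℂ) ^ κ * (-1) ^ κ) * th a b c D κ f w := by
        rw [zero_mul, zero_add, pow_succ]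
        ring
      rw [h8, h7, one_mul]
  · -- make the last entry a prime
    have hcop : IsCoprime d ((8 * C.natAbs : ℕ) : ℤ) := by
      have h1 : IsCoprime d C := ⟨A, -B, by linarith⟩
      have h2 : IsCoprime d (C.natAbs : ℤ) := by
        rcases Int.natAbs_eq C with h | h
        · rw [h] at h1; exact h1
        · rw [h] at h1
          simpa using h1.neg_right
      have h3 : IsCoprime d (2 : ℤ) := by
        obtain ⟨k, hk⟩ := hdo
        exact ⟨1, -k, by rw [hk]; ring⟩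
      have h4 : IsCoprime d (8 : ℤ) := by
        have := h3.pow_right (n := 3)
        norm_num at this
        exact this
      push_cast
      push_cast at h2
      exact h4.mul_right h2
    obtain ⟨ℓ, hℓn, hℓ, hmod⟩ := Nat.forall_exists_prime_gt_and_zmodEq
      (2 + a.natAbs + D) (q := 8 * C.natAbs)
      (Nat.mul_ne_zero (by norm_num) (Int.natAbs_ne_zero.2 hC0)) hcop
    have h2 : 8 * C ∣ (ℓ : ℤ) - d := by
      have h3 := hmod.symm.dvd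
      have h4 : (8 * C) ∣ ((8 * C.natAbs : ℕ) : ℤ) := by
        push_cast
        exact mul_dvd_mul_left 8 ((dvd_abs C C).2 dvd_rfl)
      exact h4.trans h3
    obtain ⟨n', hn'⟩ := h2
    obtain ⟨n, hnn⟩ : ∃ n : ℤ, n = 8 * n' := ⟨_, rfl⟩
    have hn : (ℓ : ℤ) - d = C * n := by rw [hn', hnn]; ring
    have hℓ2 : ℓ ≠ 2 := by omega
    have hℓa : ¬ (ℓ : ℤ) ∣ a := by
      intro h
      have h3 := Int.le_of_dvd ha h
      omega
    have hℓD : ¬ (ℓ : ℤ) ∣ D := by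
      intro h
      have h3 := Int.le_of_dvd (by exact_mod_cast hD0) h
      omega
    have hdet' : A * ℓ - (B + n * A) * C = 1 := by
      have : (ℓ : ℤ) = d + C * n := by linarith
      rw [this]
      linarith
    have hwn : 0 < (w + ((-n : ℤ) : ℂ)).im := by
      simpa using hw
    have : Fact ℓ.Prime := ⟨hℓ⟩
    have hℓodd : Odd ℓ := hℓ.odd_of_ne_two hℓ2
    have key := law_prime_gen hPO ha hD0 hD (κ := κ) hm hf (A := A) (B := B + n * A) (C := C) hℓ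
      (jacobiSym (-(D : ℤ)) ℓ)
      (fun h => gauss_any ℓ hℓ2 a b c ((B + n * A) * m ^ 2) D (by linarith) hℓa h hℓD)
      hdet' hC hwn
    have h3 : (C : ℂ) * (w + ((-n : ℤ) : ℂ)) + ℓ = C * w + d := by
      have : (ℓ : ℂ) = d + C * n := by
        have h4 : (ℓ : ℤ) = d + C * n := by linarith
        have h5 := congrArg (Int.cast : ℤ → ℂ) h4
        push_cast at h5
        exact h5
      rw [this]
      push_cast
      ring
    have h4 : (A : ℂ) * (w + ((-n : ℤ) : ℂ)) + ((B + n * A : ℤ) : ℂ) = A * w + B := by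
      push_cast
      ring
    rw [h3, h4, th_add_int] at key
    rw [key]
    have h5 : (fun v => f ((ℓ : ℤ) • v)) = fun v => f (d • v) := by
      funext v
      obtain ⟨k, hk⟩ := hmC
      have : (ℓ : ℤ) • v = d • v + (m : ℤ) • ((k * n) • v) := by
        rw [smul_smul, ← add_smul]
        congr 1
        rw [hk] at hn
        linarith
      rw [this, hf]
    have h6 : jacobiSym (-(D : ℤ)) ℓ = H776.kr v D₀ d := by
      rw [hDv, H776.jac_eq_kr hD₀ hℓodd]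
      apply H776.kr_congr
      rw [hn']
      obtain ⟨k, hk⟩ := hD₀C
      exact ⟨k * n', by rw [hk]; push_cast; ring⟩
    rw [h5, h6]

end

end Vale.Agent.P022.H138
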