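import Vale.Agent.P022.H138.Law
import Vale.Agent.P022.H866.Gs

/-!
[LAW] from [PO] alone.
-/

namespace Vale.Agent.P022.H138

theorem gaussPrime : GaussPrime := by
  intro ℓ hF hℓ p q r h D hD hDo hp hh hl
  rw [← H866.gs' ℓ hℓ p q r h D hD hDo hp hh hl]
  refine Finset.sum_congr rfl fun x _ => ?_
  unfold Sq.ee Sq.Qf Sq.rep
  rw [mul_div_assoc]

/-- **[LAW]** -/
theorem LAW (hPO : POStmt) : LAWStmt := law hPO gaussPrime

end Vale.Agent.P022.H138
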