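import Vale.Agent.P022.H138.LawX
import Vale.Agent.P022.H933.Ext

/-!
[LAWG]: the law under `Γ₀(D m²)` for every discriminant, in the letters of `H933.Ext`.
-/

namespace Vale.Agent.P022.H138

/-- the Kronecker symbol in the two letters -/
theorem chiD_eq_krD {a b c : ℤ} {D : ℕ} (hD0 : 0 < D) (h : b ^ 2 - 4 * a * c = -(D : ℤ))
    {d : ℤ} (hd : Odd d) : X.chiD D d = H776.krD D d := by
  have hn : Odd d.natAbs := Int.natAbs_odd.2 hd
  unfold X.chiD
  rw [← H776.krD_eq_jac hD0.ne' h hn]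
  have hd0 : d ≠ 0 := by
    rintro rfl
    simp at hd
  rcases lt_or_gt_of_ne hd0 with h1 | h1
  · have h2 : ((d.natAbs : ℕ) : ℤ) = -d := by omega
    rw [Int.sign_eq_neg_one_of_neg h1, h2]
    have h3 : H776.krD D d = H776.krD D (-1) * H776.krD D (-d) := by
      rw [← H776.krD_mul]
      congr 1
      ring
    rw [h3, H776.krD_neg_one hD0.ne' h]
  · have h2 : ((d.natAbs : ℕ) : ℤ) = d := by omega
    rw [Int.sign_eq_one_of_pos h1, h2, one_mul]

/-- **[LAWG]** -/
theorem LAWG (hPO : POStmt) : X.LAWGStmt := by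
  intro a b c D ha hD0 h κ m hm f hf A B C d h1 h2 hd w hw
  rw [LAWX hPO a b c D ha hD0 h κ m hm f hf A B C d h1 h2 w hw, chiD_eq_krD hD0 h hd]

end Vale.Agent.P022.H138
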