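import Vale.Agent.P022.H138.LawF
import Vale.Agent.P022.H138.LawE
import Vale.Agent.P022.H776.Kr

/-!
[LAWX]: the law under `Γ₀(D m²)` for every discriminant, in the letters of `H776.Kr`.
-/

namespace Vale.Agent.P022.H138

/-- **[LAWX]** -/
theorem LAWX (hPO : POStmt) : H776.LAWXStmt := by
  refine H776.lawx_of (LAW hPO) ?_
  intro a b c D ha hD0 hD h κ m hm f hf A B C d h1 h2 w hw
  have hE : Even D := Nat.not_odd_iff_even.1 hD
  have hdo : Odd d := by
    rw [← Int.not_even_iff_odd]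
    intro hd
    have hDC : (D : ℤ) ∣ C := (Dvd.intro ((m : ℤ) ^ 2) (by push_cast; ring)).trans h2
    have h2D : (2 : ℤ) ∣ D := by exact_mod_cast hE.two_dvd
    have h2C : (2 : ℤ) ∣ C := h2D.trans hDC
    have h3 : (2 : ℤ) ∣ 1 := by
      rw [← h1]
      exact dvd_sub (Dvd.dvd.mul_left hd.two_dvd _) (Dvd.dvd.mul_left h2C _)
    norm_num at h3
  have key := LAWE hPO a b c D (D.factorization 2) (H776.oddP D) ha (H776.oddP_mul D).symm
    (H776.odd_oddP hD0.ne') h κ m hm f hf A B C d hdo h1 h2 w hw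
  rw [key, H776.krD_of_even hD]

end Vale.Agent.P022.H138
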