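import Mathlib.Analysis.SpecialFunctions.Complex.Log
import Mathlib.Data.ZMod.Basic
import Mathlib.NumberTheory.LegendreSymbol.JacobiSymbol
import Mathlib.Data.Fin.VecNotation
import Mathlib.Topology.Algebra.InfiniteSum.Basic

/-!
Letters for the theta series of an ideal in coordinates.

* the form `p x² + q x y + r y²` of discriminant `-D`, `D = 4 p r - q²`, `p, D > 0`,
* its dual form `Qd` and the adjoint map,
* the isotropic linear form `lin w`.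
-/

namespace Vale.Agent.P022.H138

noncomputable section

open Complex

/-- the binary quadratic form -/
def Qf (p q r : ℤ) (x : Fin 2 → ℤ) : ℤ := p * x 0 ^ 2 + q * x 0 * x 1 + r * x 1 ^ 2

/-- the dual form (`D` times the inverse form) -/
def Qd (p q r : ℤ) (k : Fin 2 → ℤ) : ℤ := r * k 0 ^ 2 - q * k 0 * k 1 + p * k 1 ^ 2

/-- the adjoint of the matrix `(2p, q; q, 2r)` applied to `k` -/
def adj (p q r : ℤ) (k : Fin 2 → ℤ) : Fin 2 → ℤ :=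
  ![2 * r * k 0 - q * k 1, -q * k 0 + 2 * p * k 1]

/-- the linear form with coefficients `w` -/
def lin (w : Fin 2 → ℂ) (x : Fin 2 → ℤ) : ℂ := x 0 * w 0 + x 1 * w 1

/-- the data of a positive form of discriminant `-D` and an isotropic linear form -/
structure Dt (p q r : ℤ) (D : ℕ) (w : Fin 2 → ℂ) : Prop where
  disc : 4 * p * r - q ^ 2 = D
  pos : 0 < p
  Dpos : 0 < D
  iso : (r : ℂ) * w 0 ^ 2 - q * w 0 * w 1 + p * w 1 ^ 2 = 0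

/-- `exp (2 π i z)` -/
def ee (z : ℂ) : ℂ := cexp (2 * Real.pi * I * z)

/-- the representative of a vector mod `M` -/
def rep {M : ℕ} (x : Fin 2 → ZMod M) : Fin 2 → ℤ := fun i => ((x i).val : ℤ)

/-- integer dot product -/
def dt (k x : Fin 2 → ℤ) : ℤ := k 0 * x 0 + k 1 * x 1

/-- finite Fourier transform of a function with period `M` -/
def ft (M : ℕ) [NeZero M] (g : (Fin 2 → ℤ) → ℂ) (k : Fin 2 → ℤ) : ℂ :=
  ∑ x : Fin 2 → ZMod M, g (rep x) * ee ((dt k (rep x) : ℤ) / (M : ℂ))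

/-- the theta series with polynomial factor -/
def th (p q r : ℤ) (w : Fin 2 → ℂ) (f : (Fin 2 → ℤ) → ℂ) (κ : ℕ) (τ : ℂ) : ℂ :=
  ∑' x : Fin 2 → ℤ, f x * lin w x ^ κ * ee (τ * (Qf p q r x : ℤ))

/-- the dual theta series -/
def thd (p q r : ℤ) (w : Fin 2 → ℂ) (g : (Fin 2 → ℤ) → ℂ) (κ : ℕ) (τ : ℂ) : ℂ :=
  ∑' k : Fin 2 → ℤ, g k * lin w (adj p q r k) ^ κ * ee (τ * (Qd p q r k : ℤ))

/-- [PO], the Poisson formula -/
def PoStmt : Prop := ∀ (p q r : ℤ) (D : ℕ) (w : Fin 2 → ℂ), Dt p q r D w →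
  ∀ (M : ℕ) [NeZero M] (g : (Fin 2 → ℤ) → ℂ), (∀ x y, g (x + (M : ℤ) • y) = g x) →
  ∀ (κ : ℕ) (t : ℂ), 0 < t.im →
    th p q r w g κ t = I / ((Real.sqrt D : ℝ) * (M : ℂ) ^ 2 * t) * (1 / ((D : ℂ) * M * t)) ^ κ *
      thd p q r w (ft M g) κ (-1 / ((D : ℂ) * (M : ℂ) ^ 2 * t))

/-- [GS], the Gauss sum -/
def GsStmt : Prop := ∀ (ℓ : ℕ) [Fact ℓ.Prime], ℓ ≠ 2 → ∀ (p q r h : ℤ) (D : ℕ),
  4 * p * r - q ^ 2 = D → Odd D → ¬ (ℓ : ℤ) ∣ p → ¬ (ℓ : ℤ) ∣ h → ¬ (ℓ : ℤ) ∣ D →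
    ∑ x : Fin 2 → ZMod ℓ, ee ((h * Qf p q r (rep x) : ℤ) / (ℓ : ℂ)) = (jacobiSym ℓ D : ℂ) * ℓ

end

end Vale.Agent.P022.H138
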